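import Vale.Agent.P217.FG.Auto

/-!
# P217 module B3: the height ideals and endomorphisms of `E0`
-/

noncomputable section

namespace Vale.Agent.P217

variable {p n : ℕ} [Fact p.Prime] {F : FormalGroup (E0 p n)}

namespace Heights

/-! ### The ideals spanned by variables -/

theorem mem_span_X {R : Type} [CommRing R] {ι : Type} (S : Finset ι) :
    ∀ x : MvPowerSeries ι R, (∀ d, (∀ i ∈ S, d i = 0) → MvPowerSeries.coeff d x = 0) →
      x ∈ Ideal.span ((fun i => (MvPowerSeries.X i : MvPowerSeries ι R)) '' (↑S : Set ι)) := by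
  classical
  induction S using Finset.induction_on with
  | empty =>
    intro x hx
    rw [show x = 0 from MvPowerSeries.ext fun d => hx d (by simp)]
    exact zero_mem _
  | @insert i S hi ih =>
    intro x hx
    let y : MvPowerSeries ι R := fun d => MvPowerSeries.coeff (d + Finsupp.single i 1) x
    have hy : ∀ d, MvPowerSeries.coeff d (MvPowerSeries.X i * y) =
        if 1 ≤ d i then MvPowerSeries.coeff d x else 0 := by
      intro d
      rw [MvPowerSeries.X, MvPowerSeries.coeff_monomial_mul]
      by_cases h : 1 ≤ d i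
      · have h' : Finsupp.single i 1 ≤ d := Finsupp.single_le_iff.2 h
        rw [if_pos h', if_pos h, one_mul]
        change MvPowerSeries.coeff (d - Finsupp.single i 1 + Finsupp.single i 1) x = _
        rw [tsub_add_cancel_of_le h']
      · rw [if_neg h, if_neg fun h' => h (Finsupp.single_le_iff.1 h')]
    have h1 : x - MvPowerSeries.X i * y ∈
        Ideal.span ((fun i => (MvPowerSeries.X i : MvPowerSeries ι R)) '' (↑S : Set ι)) := by
      refine ih _ fun d hd => ?_
      rw [map_sub, hy]
      by_cases h : 1 ≤ d i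
      · simp [h]
      · rw [if_neg h, sub_zero]
        refine hx d fun j hj => ?_
        rcases Finset.mem_insert.1 hj with rfl | hj
        · omega
        · exact hd j hj
    have h2 : x = (x - MvPowerSeries.X i * y) + MvPowerSeries.X i * y := by ring
    rw [h2]
    refine Ideal.add_mem _ (Ideal.span_mono (Set.image_mono (by simp)) h1) ?_
    exact Ideal.mul_mem_right _ _ (Ideal.subset_span ⟨i, by simp, rfl⟩)

theorem X_mem_maximalIdeal (i : Fin (n - 1)) :
    (MvPowerSeries.X i : E0 p n) ∈ IsLocalRing.maximalIdeal (E0 p n) := by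
  rw [IsLocalRing.mem_maximalIdeal, mem_nonunits_iff, MvPowerSeries.isUnit_iff_constantCoeff,
    MvPowerSeries.constantCoeff_X]
  exact not_isUnit_zero

theorem dvd_of_constantCoeff_eq_zero {c : W p n} (hc : WittVector.constantCoeff c = 0) :
    ∃ b, c = (p : W p n) * b := by
  have : c ∈ RingHom.ker (WittVector.constantCoeff : W p n →+* Coef p n) := RingHom.mem_ker.2 hc
  rw [WittVector.ker_constantCoeff, Ideal.mem_span_singleton'] at this
  obtain ⟨b, hb⟩ := this
  exact ⟨b, by rw [← hb, mul_comm]⟩

theorem isUnit_of_residueMap {x : E0 p n} (hx : residueMap p n x ≠ 0) : IsUnit x := by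
  rw [MvPowerSeries.isUnit_iff_constantCoeff]
  exact WittVector.isUnit_of_coeff_zero_ne_zero _ hx

/-! ### The map killing the height ideal -/

/-- The embedding of the variables outside `I_h`. -/
def emb (n h : ℕ) : {i : Fin (n - 1) // h ≤ (i : ℕ) + 1} ↪ Fin (n - 1) :=
  Function.Embedding.subtype _

/-- Reduction modulo `p` and `u_1, ..., u_{h-1}`. -/
def red (p n : ℕ) [Fact p.Prime] (h : ℕ) :
    E0 p n →+* MvPowerSeries {i : Fin (n - 1) // h ≤ (i : ℕ) + 1} (Coef p n) :=
  (MvPowerSeries.killCompl (emb n h)).toRingHom.comp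
    (MvPowerSeries.map WittVector.constantCoeff)

theorem coeff_red (h : ℕ) (x : E0 p n) (d : {i : Fin (n - 1) // h ≤ (i : ℕ) + 1} →₀ ℕ) :
    MvPowerSeries.coeff d (red p n h x) =
      WittVector.constantCoeff (MvPowerSeries.coeff (d.embDomain (emb n h)) x) := by
  simp [red, MvPowerSeries.coeff_killCompl]

theorem u_mem_of_lt {h i : ℕ} (hi : 1 ≤ i) (hih : i < h) : u p n i ∈ heightIdeal p n h := by
  rw [heightIdeal, if_neg (by omega)]
  exact Ideal.subset_span (Or.inr ⟨i, ⟨hi, hih⟩, rfl⟩)

theorem p_mem {h : ℕ} (hh : 1 ≤ h) : (p : E0 p n) ∈ heightIdeal p n h := by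
  rw [heightIdeal, if_neg (by omega)]
  exact Ideal.subset_span (Or.inl rfl)

theorem ker_red {h : ℕ} (h1 : 1 ≤ h) (hh : h ≤ n) :
    RingHom.ker (red p n h) = heightIdeal p n h := by
  classical
  refine le_antisymm (fun x hx => ?_) ?_
  · set S : Finset (Fin (n - 1)) := Finset.univ.filter fun i : Fin (n - 1) => (i : ℕ) + 1 < h with hS
    have hc : ∀ d : Fin (n - 1) →₀ ℕ, (∀ i ∈ S, d i = 0) →
        ∃ b, MvPowerSeries.coeff d x = (p : W p n) * b := by
      intro d hd
      refine dvd_of_constantCoeff_eq_zero ?_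
      obtain ⟨d', rfl⟩ : d ∈ Set.range (Finsupp.embDomain (emb n h)) := by
        rw [Finsupp.mem_range_embDomain_iff]
        intro i hi
        refine ⟨⟨i, ?_⟩, rfl⟩
        by_contra hlt
        exact Finsupp.mem_support_iff.1 hi (hd i (by simp [hS]; omega))
      rw [← coeff_red, RingHom.mem_ker.1 hx, map_zero]
    choose b hb using hc
    let z : E0 p n := fun d => if hd : ∀ i ∈ S, d i = 0 then b d hd else 0
    have h2 : x - (p : E0 p n) * z ∈
        Ideal.span ((fun i => (MvPowerSeries.X i : E0 p n)) '' (↑S : Set (Fin (n - 1)))) := by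
      refine mem_span_X S _ fun d hd => ?_
      rw [map_sub, ← map_natCast (MvPowerSeries.C (σ := Fin (n - 1)) (R := W p n)),
        MvPowerSeries.coeff_C_mul]
      change MvPowerSeries.coeff d x - (p : W p n) * (if hd : ∀ i ∈ S, d i = 0 then b d hd else 0) = 0
      rw [dif_pos hd, ← hb d hd, sub_self]
    have h3 : x = (p : E0 p n) * z + (x - (p : E0 p n) * z) := by ring
    rw [h3]
    refine Ideal.add_mem _ (Ideal.mul_mem_right _ _ (p_mem h1)) (Ideal.span_le.2 ?_ h2)
    rintro _ ⟨i, hi, rfl⟩
    have hih : (i : ℕ) + 1 < h := (Finset.mem_filter.1 hi).2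
    have := u_mem_of_lt (p := p) (n := n) (Nat.le_add_left 1 (i : ℕ)) hih
    simpa [u, show (i : ℕ) + 1 < n by omega] using this
  · rw [heightIdeal, if_neg (by omega), Ideal.span_le]
    rintro x (rfl | ⟨i, ⟨hi1, hi2⟩, rfl⟩)
    · rw [SetLike.mem_coe, RingHom.mem_ker, map_natCast]
      refine MvPowerSeries.ext fun d => ?_
      rw [← map_natCast (MvPowerSeries.C (R := Coef p n)), CharP.cast_eq_zero, map_zero]
    · rw [SetLike.mem_coe, RingHom.mem_ker, u, dif_pos ⟨hi1, lt_of_lt_of_le hi2 hh⟩]
      simp only [red, RingHom.comp_apply, MvPowerSeries.map_X]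
      refine MvPowerSeries.killCompl_X_eq_zero ?_
      rintro ⟨⟨j, hj⟩, hje⟩
      have := congrArg Fin.val hje
      simp only [emb, Function.Embedding.coe_subtype] at this
      omega

/-! ### Substitution facts -/

theorem coeff_two {R : Type} [CommRing R] (G : FormalGroup R) {a b : PowerSeries R} {q : ℕ}
    (hq : 1 ≤ q) (ha : PowerSeries.X ^ q ∣ a) (hb : PowerSeries.X ^ q ∣ b) {i : ℕ} (hi : i ≤ q) :
    PowerSeries.coeff i (G.toPowerSeries.subst ![a, b]) =
      PowerSeries.coeff i a + PowerSeries.coeff i b := by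
  classical
  have hc : ∀ {c : PowerSeries R}, PowerSeries.X ^ q ∣ c → PowerSeries.constantCoeff c = 0 :=
    fun h => PowerSeries.X_dvd_iff.1 ((dvd_pow_self _ (by omega)).trans h)
  have hs : MvPowerSeries.HasSubst ![a, b] :=
    MvPowerSeries.hasSubst_of_constantCoeff_zero fun s => by
      fin_cases s
      · exact hc ha
      · exact hc hb
  rw [PowerSeries.coeff, MvPowerSeries.coeff_subst hs,
    finsum_eq_sum_of_support_subset _
      (s := {Finsupp.single (0 : Fin 2) 1, Finsupp.single (1 : Fin 2) 1}) ?_]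
  · rw [Finset.sum_pair (by simp [Finsupp.single_eq_single_iff])]
    simp [G.lin_coeff_X, G.lin_coeff_Y]
  · intro d hd
    by_contra hne
    simp only [Finset.coe_insert, Finset.coe_singleton, Set.mem_insert_iff,
      Set.mem_singleton_iff, not_or] at hne
    apply Function.mem_support.1 hd
    rcases eq_or_ne d 0 with rfl | h0
    · rw [show MvPowerSeries.coeff 0 G.toPowerSeries = 0 by simpa using G.zero_constantCoeff]
      exact zero_smul _ _
    have h2 : 2 ≤ d 0 + d 1 := by
      by_contra h
      rcases Nat.eq_zero_or_pos (d 0) with h0' | h0' <;>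
        rcases Nat.eq_zero_or_pos (d 1) with h1' | h1'
      · exact h0 (Finsupp.ext fun j => by fin_cases j <;> simp [h0', h1'])
      · exact hne.2 (Finsupp.ext fun j => by fin_cases j <;> simp [h0'] ; omega)
      · exact hne.1 (Finsupp.ext fun j => by fin_cases j <;> simp [h1'] ; omega)
      · omega
    have hdvd : PowerSeries.X ^ (q * (d 0 + d 1)) ∣ d.prod fun s e => (![a, b] s) ^ e := by
      rw [Finsupp.prod_fintype _ _ (fun _ => pow_zero _), Fin.prod_univ_two, mul_add, pow_add,
        pow_mul, pow_mul]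
      exact mul_dvd_mul (pow_dvd_pow_of_dvd ha _) (pow_dvd_pow_of_dvd hb _)
    have := PowerSeries.X_pow_dvd_iff.1 hdvd i (by nlinarith)
    change _ • PowerSeries.coeff i (d.prod fun s e => (![a, b] s) ^ e) = 0
    rw [this, smul_zero]

theorem coeff_subst_of_dvd_right {R : Type} [CommRing R] {f a : PowerSeries R} {q : ℕ}
    (hf : PowerSeries.constantCoeff f = 0) (ha : PowerSeries.X ^ (q + 1) ∣ a) :
    PowerSeries.coeff q (f.subst a) = 0 := by
  have hs : PowerSeries.HasSubst a := PowerSeries.HasSubst.of_constantCoeff_zero'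
    (PowerSeries.X_dvd_iff.1 ((dvd_pow_self _ (by omega)).trans ha))
  rw [PowerSeries.coeff_subst' hs, finsum_eq_zero_of_forall_eq_zero]
  intro d
  rcases Nat.eq_zero_or_pos d with rfl | hd
  · simp [hf]
  · rw [PowerSeries.X_pow_dvd_iff.1 (ha.trans (dvd_pow_self _ (by omega))) q (by omega), smul_zero]

theorem coeff_subst_of_dvd_left {R : Type} [CommRing R] {b φ : PowerSeries R} {q : ℕ}
    (hφ : PowerSeries.constantCoeff φ = 0) (hb : PowerSeries.X ^ q ∣ b) :
    PowerSeries.coeff q (b.subst φ) = PowerSeries.coeff q b * PowerSeries.coeff 1 φ ^ q := by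
  obtain ⟨φ', rfl⟩ := PowerSeries.X_dvd_iff.2 hφ
  rw [PowerSeries.coeff_subst' (PowerSeries.HasSubst.of_constantCoeff_zero' hφ),
    finsum_eq_single _ q]
  · rw [mul_pow, PowerSeries.coeff_X_pow_mul', if_pos le_rfl, Nat.sub_self,
      PowerSeries.coeff_zero_eq_constantCoeff, map_pow, smul_eq_mul,
      show (1 : ℕ) = 0 + 1 from rfl, PowerSeries.coeff_succ_X_mul,
      PowerSeries.coeff_zero_eq_constantCoeff]
  · intro d hd
    rcases lt_or_gt_of_ne hd with h | h
    · rw [PowerSeries.X_pow_dvd_iff.1 hb d h, zero_smul]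
    · rw [mul_pow, PowerSeries.coeff_X_pow_mul', if_neg (by omega), smul_zero]

theorem map_tail_facts {R S : Type} [CommRing R] [CommRing S] (ψ : R →+* S) (G : FormalGroup R)
    (v : ℕ → R) {h : ℕ} (hh : 1 ≤ h) (hv : ∀ i, 1 ≤ i → i < h → ψ (v i) = 0) (j : ℕ) :
    PowerSeries.X ^ p ^ h ∣ PowerSeries.map ψ (FG.tail p G v j) ∧
      PowerSeries.coeff (p ^ h) (PowerSeries.map ψ (FG.tail p G v j)) =
        if h ≤ j then ψ (v h) else 0 := by
  have hp2 : 2 ≤ p := (Fact.out : p.Prime).two_le
  induction j with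
  | zero => simp [FG.tail, show ¬ h ≤ 0 by omega]
  | succ j ih =>
    obtain ⟨ih1, ih2⟩ := ih
    set t := PowerSeries.C (ψ (v (j + 1))) * PowerSeries.X ^ p ^ (j + 1) with ht
    have ht1 : PowerSeries.X ^ p ^ h ∣ t := by
      rcases lt_or_ge (j + 1) h with hlt | hge
      · rw [ht, hv (j + 1) (by omega) hlt, map_zero, zero_mul]; exact dvd_zero _
      · exact Dvd.dvd.mul_left (pow_dvd_pow _ (Nat.pow_le_pow_right (by omega) hge)) _
    have h0 : (PowerSeries.C (v (j + 1)) * PowerSeries.X ^ p ^ (j + 1)).constantCoeff = 0 := by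
      simp [zero_pow (pow_ne_zero (j + 1) (Fact.out : p.Prime).ne_zero)]
    have hmap : PowerSeries.map ψ (FG.tail p G v (j + 1)) =
        (G.map ψ).toPowerSeries.subst ![t, PowerSeries.map ψ (FG.tail p G v j)] := by
      change PowerSeries.map ψ (G.toPowerSeries.subst
        ![PowerSeries.C (v (j + 1)) * PowerSeries.X ^ p ^ (j + 1), FG.tail p G v j]) = _
      rw [FG.map_two ψ G h0 (FG.Haz.constantCoeff_tail G v j), map_mul, PowerSeries.map_C, map_pow,
        PowerSeries.map_X]
    have hq : 1 ≤ p ^ h := Nat.one_le_pow _ _ (by omega)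
    refine ⟨?_, ?_⟩
    · rw [hmap, PowerSeries.X_pow_dvd_iff]
      intro i hi
      rw [coeff_two _ hq ht1 ih1 hi.le, PowerSeries.X_pow_dvd_iff.1 ht1 i hi,
        PowerSeries.X_pow_dvd_iff.1 ih1 i hi, add_zero]
    · rw [hmap, coeff_two _ hq ht1 ih1 le_rfl, ih2, ht, PowerSeries.coeff_C_mul,
        PowerSeries.coeff_X_pow]
      rcases lt_trichotomy (j + 1) h with hlt | heq | hgt
      · have : p ^ (j + 1) < p ^ h := Nat.pow_lt_pow_right (by omega) hlt
        rw [if_neg this.ne', if_neg (by omega), if_neg (by omega)]; simp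
      · subst heq; simp
      · have : p ^ h < p ^ (j + 1) := Nat.pow_lt_pow_right (by omega) hgt
        rw [if_neg this.ne, if_pos (by omega), if_pos (by omega)]; simp

theorem isHom_nsmul {R : Type} [CommRing R] {G H : FormalGroup R} {φ : PowerSeries R}
    (h : IsHom G H φ) (m : ℕ) :
    φ.subst (nsmulSeries G m) = (nsmulSeries H m).subst φ := by
  obtain ⟨h0, h1⟩ := h
  have hφ : PowerSeries.HasSubst φ := PowerSeries.HasSubst.of_constantCoeff_zero' h0
  induction m with
  | zero =>
    simp only [nsmulSeries]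
    rw [PowerSeries.subst_zero_of_constantCoeff_zero h0,
      ← PowerSeries.coe_substAlgHom hφ, map_zero]
  | succ m ih =>
    have hN : ∀ K : FormalGroup R, (nsmulSeries K m).constantCoeff = 0 :=
      fun K => FG.Haz.constantCoeff_nsmulSeries K m
    have hXN : ∀ K : FormalGroup R,
        MvPowerSeries.HasSubst ![(PowerSeries.X : PowerSeries R), nsmulSeries K m] := fun K =>
      MvPowerSeries.hasSubst_of_constantCoeff_zero fun s => by
        fin_cases s
        · exact PowerSeries.constantCoeff_X
        · exact hN K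
    have hpair : MvPowerSeries.HasSubst ![φ.subst (MvPowerSeries.X 0 : MvPowerSeries (Fin 2) R),
        φ.subst (MvPowerSeries.X 1 : MvPowerSeries (Fin 2) R)] :=
      MvPowerSeries.hasSubst_of_constantCoeff_zero fun s => by
        fin_cases s <;>
          exact PowerSeries.constantCoeff_subst_eq_zero (MvPowerSeries.constantCoeff_X _) _ h0
    have hG : PowerSeries.HasSubst G.toPowerSeries :=
      PowerSeries.HasSubst.of_constantCoeff_zero G.zero_constantCoeff
    calc φ.subst (nsmulSeries G (m + 1))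
        = MvPowerSeries.subst ![(PowerSeries.X : PowerSeries R), nsmulSeries G m]
            (φ.subst G.toPowerSeries) :=
          (MvPowerSeries.subst_comp_subst_apply hG.const (hXN G) φ).symm
      _ = MvPowerSeries.subst ![(PowerSeries.X : PowerSeries R), nsmulSeries G m]
            (H.toPowerSeries.subst ![φ.subst (MvPowerSeries.X 0 : MvPowerSeries (Fin 2) R),
              φ.subst (MvPowerSeries.X 1 : MvPowerSeries (Fin 2) R)]) := by rw [h1]
      _ = H.toPowerSeries.subst ![φ, φ.subst (nsmulSeries G m)] := by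
          rw [MvPowerSeries.subst_comp_subst_apply hpair (hXN G)]
          congr 1
          funext s
          fin_cases s
          · refine (MvPowerSeries.subst_comp_subst_apply
              (PowerSeries.HasSubst.X (0 : Fin 2)).const (hXN G) φ).trans ?_
            refine Eq.trans ?_ (PowerSeries.X_subst φ)
            congr 1
            funext _
            simp [MvPowerSeries.subst_X (hXN G)]
          · refine (MvPowerSeries.subst_comp_subst_apply
              (PowerSeries.HasSubst.X (1 : Fin 2)).const (hXN G) φ).trans ?_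
            change _ = φ.subst (nsmulSeries G m)
            congr 1
            funext _
            simp [MvPowerSeries.subst_X (hXN G)]
      _ = (nsmulSeries H (m + 1)).subst φ := by
          rw [ih]
          refine Eq.trans ?_ (MvPowerSeries.subst_comp_subst_apply (hXN H) hφ.const _).symm
          congr 1
          funext s
          fin_cases s
          · exact (PowerSeries.subst_X hφ).symm
          · rfl

/-- One step of the invariance of the height ideals. -/
theorem action_step (hF : IsHazewinkel p n F) {σ : E0 p n →ₐ[W p n] E0 p n}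
    {φ : PowerSeries (E0 p n)} (hφ : IsHom F (F.map σ.toRingHom) φ)
    (hu1 : IsUnit (PowerSeries.coeff 1 φ)) {h : ℕ} (h1 : 1 ≤ h) (hh : h < n)
    (hI : ∀ x ∈ heightIdeal p n h, σ x ∈ heightIdeal p n h)
    (hmono : heightIdeal p n h ≤ heightIdeal p n (h + 1)) :
    σ (u p n h) ∈ heightIdeal p n (h + 1) := by
  set ψ := Ideal.Quotient.mk (heightIdeal p n (h + 1)) with hψ
  set ψ' := ψ.comp σ.toRingHom with hψ'
  have hψp : ψ (p : E0 p n) = 0 := Ideal.Quotient.eq_zero_iff_mem.2 (p_mem (by omega))
  have hψ'p : ψ' (p : E0 p n) = 0 := by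
    rw [hψ', RingHom.comp_apply, map_natCast σ.toRingHom]; exact hψp
  have hA : PowerSeries.X ^ (p ^ h + 1) ∣ PowerSeries.map ψ (nsmulSeries F p) := by
    rw [FG.map_nsmul_p p n hF ψ hψp]
    refine (pow_dvd_pow _ ?_).trans (map_tail_facts ψ F (u p n) (show 1 ≤ h + 1 by omega)
      (fun i hi hih => Ideal.Quotient.eq_zero_iff_mem.2 (u_mem_of_lt hi hih)) n).1
    exact Nat.succ_le_of_lt (Nat.pow_lt_pow_right (Fact.out : p.Prime).one_lt (by omega))
  have hv : ∀ i, 1 ≤ i → i < h → ψ' (u p n i) = 0 := fun i hi hih =>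
    Ideal.Quotient.eq_zero_iff_mem.2 (hmono (hI _ (u_mem_of_lt hi hih)))
  obtain ⟨hB, hBq⟩ := map_tail_facts (p := p) ψ' F (u p n) h1 hv n
  rw [if_pos hh.le] at hBq
  have hcomp : PowerSeries.map ψ (nsmulSeries (F.map σ.toRingHom) p) =
      PowerSeries.map ψ' (FG.tail p F (u p n) n) := by
    rw [FG.nsmulSeries_map, ← FG.map_nsmul_p p n hF ψ' hψ'p]
    refine PowerSeries.ext fun i => ?_
    simp [hψ', PowerSeries.coeff_map]
  have key := congrArg (PowerSeries.map ψ) (isHom_nsmul hφ p)
  have hN : ∀ K : FormalGroup (E0 p n), PowerSeries.HasSubst (nsmulSeries K p) := fun K =>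
    PowerSeries.HasSubst.of_constantCoeff_zero' (FG.Haz.constantCoeff_nsmulSeries K p)
  rw [show PowerSeries.map ψ (φ.subst (nsmulSeries F p)) =
      (PowerSeries.map ψ φ).subst (PowerSeries.map ψ (nsmulSeries F p)) from
        PowerSeries.map_subst (hN F) φ,
    show PowerSeries.map ψ ((nsmulSeries (F.map σ.toRingHom) p).subst φ) =
      (PowerSeries.map ψ (nsmulSeries (F.map σ.toRingHom) p)).subst (PowerSeries.map ψ φ) from
        PowerSeries.map_subst (PowerSeries.HasSubst.of_constantCoeff_zero' hφ.1) _, hcomp] at key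
  have hφ0 : PowerSeries.constantCoeff (PowerSeries.map ψ φ) = 0 := by
    rw [← PowerSeries.coeff_zero_eq_constantCoeff, PowerSeries.coeff_map,
      PowerSeries.coeff_zero_eq_constantCoeff, hφ.1, map_zero]
  have h2 := congrArg (PowerSeries.coeff (p ^ h)) key
  rw [coeff_subst_of_dvd_right hφ0 hA, coeff_subst_of_dvd_left hφ0 hB, hBq,
    PowerSeries.coeff_map] at h2
  have h3 : ψ' (u p n h) = 0 :=
    ((hu1.map ψ).pow (p ^ h)).mul_left_eq_zero.1 h2.symm
  exact Ideal.Quotient.eq_zero_iff_mem.1 h3

theorem mem_succ {h : ℕ} (h1 : 1 ≤ h) :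
    heightIdeal p n (h + 1) = heightIdeal p n h ⊔ Ideal.span {u p n h} := by
  rw [heightIdeal, heightIdeal, if_neg (by omega), if_neg (by omega), ← Ideal.span_union]
  congr 1
  ext x
  simp only [Set.mem_insert_iff, Set.mem_image, Set.mem_Ico, Set.mem_union, Set.mem_singleton_iff]
  constructor
  · rintro (rfl | ⟨i, ⟨hi1, hi2⟩, rfl⟩)
    · exact Or.inl (Or.inl rfl)
    · rcases Nat.lt_succ_iff_lt_or_eq.1 hi2 with h' | rfl
      · exact Or.inl (Or.inr ⟨i, ⟨hi1, h'⟩, rfl⟩)
      · exact Or.inr rfl
  · rintro ((rfl | ⟨i, ⟨hi1, hi2⟩, rfl⟩) | rfl)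
    · exact Or.inl rfl
    · exact Or.inr ⟨i, ⟨hi1, by omega⟩, rfl⟩
    · exact Or.inr ⟨h, ⟨h1, by omega⟩, rfl⟩

end Heights

open Heights

theorem algHom_maximalIdeal_le (σ : E0 p n →ₐ[W p n] E0 p n) :
    ∀ x ∈ IsLocalRing.maximalIdeal (E0 p n), σ x ∈ IsLocalRing.maximalIdeal (E0 p n) := by
  intro x hx
  rw [IsLocalRing.mem_maximalIdeal, mem_nonunits_iff] at hx ⊢
  rw [MvPowerSeries.isUnit_iff_constantCoeff] at hx ⊢
  intro hc
  set c := MvPowerSeries.constantCoeff (σ x)
  have hu : IsUnit (MvPowerSeries.C c - x) := by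
    rw [MvPowerSeries.isUnit_iff_constantCoeff, map_sub, MvPowerSeries.constantCoeff_C]
    by_contra hcon
    have hxm : MvPowerSeries.constantCoeff x ∈ IsLocalRing.maximalIdeal (W p n) := hx
    have := Ideal.add_mem _ hcon hxm
    rw [sub_add_cancel] at this
    exact this hc
  have h2 := hu.map σ
  rw [map_sub, MvPowerSeries.isUnit_iff_constantCoeff, map_sub,
    show (MvPowerSeries.C c : E0 p n) = algebraMap (W p n) (E0 p n) c from rfl, σ.commutes,
    show MvPowerSeries.constantCoeff (algebraMap (W p n) (E0 p n) c) = c from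
      MvPowerSeries.constantCoeff_C c, sub_self] at h2
  exact not_isUnit_zero h2

theorem sub_mem_span_moved (σ : E0 p n →ₐ[W p n] E0 p n) (x : E0 p n) :
    σ x - x ∈ Ideal.span (Set.range fun i : Fin (n - 1) =>
      σ (MvPowerSeries.X i) - MvPowerSeries.X i) := by
  classical
  set J := Ideal.span (Set.range fun i : Fin (n - 1) =>
      σ (MvPowerSeries.X i) - MvPowerSeries.X i) with hJ
  set m := IsLocalRing.maximalIdeal (E0 p n)
  have key : ∀ N : ℕ, ∀ x : E0 p n, σ x - x ∈ J ⊔ m ^ N := by
    intro N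
    induction N with
    | zero => intro x; rw [pow_zero, Ideal.one_eq_top, sup_top_eq]; exact Submodule.mem_top
    | succ N ih =>
      intro x
      set x0 : E0 p n := algebraMap (W p n) (E0 p n) (MvPowerSeries.constantCoeff x) with hx0
      have hx : x - x0 ∈ Ideal.span (Set.range fun i : Fin (n - 1) =>
          (MvPowerSeries.X i : E0 p n)) := by
        have := mem_span_X (R := W p n) (Finset.univ : Finset (Fin (n - 1))) (x - x0) fun d hd => by
          have hd0 : d = 0 := Finsupp.ext fun i => hd i (Finset.mem_univ i)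
          subst hd0
          rw [map_sub, MvPowerSeries.coeff_zero_eq_constantCoeff_apply,
            MvPowerSeries.coeff_zero_eq_constantCoeff_apply, hx0,
            show MvPowerSeries.constantCoeff
              (algebraMap (W p n) (E0 p n) (MvPowerSeries.constantCoeff x)) = _ from
                MvPowerSeries.constantCoeff_C _, sub_self]
        simpa using this
      obtain ⟨y, hy⟩ := (Ideal.mem_span_range_iff_exists_fun).1 hx
      have e : σ x - x = ∑ i, (σ (y i) * (σ (MvPowerSeries.X i) - MvPowerSeries.X i) +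
          (σ (y i) - y i) * MvPowerSeries.X i) := by
        calc σ x - x = σ (x - x0) - (x - x0) := by rw [map_sub, hx0, σ.commutes]; ring
          _ = _ := by
            rw [← hy, map_sum, ← Finset.sum_sub_distrib]
            exact Finset.sum_congr rfl fun i _ => by rw [map_mul]; ring
      rw [e]
      refine Ideal.sum_mem _ fun i _ => Ideal.add_mem _ ?_ ?_
      · exact Ideal.mem_sup_left (Ideal.mul_mem_left _ _ (Ideal.subset_span ⟨i, rfl⟩))
      · have := Ideal.mul_mem_mul (ih (y i)) (X_mem_maximalIdeal (p := p) i)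
        rw [Ideal.sup_mul, ← pow_succ] at this
        exact (sup_le (Ideal.mul_le_left.trans le_sup_left) le_sup_right : J * m ⊔ m ^ (N + 1) ≤
          J ⊔ m ^ (N + 1)) this
  by_contra hne
  have hmem : Ideal.Quotient.mk J (σ x - x) ∈
      ⨅ i : ℕ, m ^ i • (⊤ : Submodule (E0 p n) (E0 p n ⧸ J)) := by
    rw [Submodule.mem_iInf]
    intro N
    obtain ⟨a, ha, b, hb, hab⟩ := Submodule.mem_sup.1 (key N x)
    rw [← hab, map_add, Ideal.Quotient.eq_zero_iff_mem.2 ha, zero_add]
    have : Ideal.Quotient.mk J b = b • (1 : E0 p n ⧸ J) := by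
      rw [← Algebra.algebraMap_eq_smul_one]; rfl
    rw [this]
    exact Submodule.smul_mem_smul hb Submodule.mem_top
  rw [Ideal.iInf_pow_smul_eq_bot_of_isLocalRing m (Ideal.IsPrime.ne_top inferInstance),
    Submodule.mem_bot, Ideal.Quotient.eq_zero_iff_mem] at hmem
  exact hne hmem

theorem heightIdeal_isPrime {h : ℕ} (hh : h ≤ n) : (heightIdeal p n h).IsPrime := by
  rcases Nat.eq_zero_or_pos h with rfl | h1
  · rw [heightIdeal, if_pos rfl]; exact Ideal.isPrime_bot
  · have : IsDomain (MvPowerSeries {i : Fin (n - 1) // h ≤ (i : ℕ) + 1} (Coef p n)) :=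
      NoZeroDivisors.to_isDomain _
    rw [← ker_red h1 hh]; exact RingHom.ker_isPrime _

theorem heightIdeal_mono {h j : ℕ} (hh : h ≤ j) :
    heightIdeal p n h ≤ heightIdeal p n j := by
  rcases Nat.eq_zero_or_pos h with rfl | h1
  · simp [heightIdeal]
  · rw [heightIdeal, heightIdeal, if_neg (by omega), if_neg (by omega)]
    exact Ideal.span_mono (Set.insert_subset_insert (Set.image_mono (Set.Ico_subset_Ico_right hh)))

theorem heightIdeal_eq_maximalIdeal (hn : 1 ≤ n) :
    heightIdeal p n n = IsLocalRing.maximalIdeal (E0 p n) := by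
  classical
  refine le_antisymm (IsLocalRing.le_maximalIdeal (heightIdeal_isPrime le_rfl).ne_top)
    fun x hx => ?_
  rw [← ker_red hn le_rfl, RingHom.mem_ker]
  refine MvPowerSeries.ext fun d => ?_
  have hd : d = 0 := Finsupp.ext fun i => absurd i.2 (by have := i.1.2; omega)
  subst hd
  rw [coeff_red, Finsupp.embDomain_zero, MvPowerSeries.coeff_zero_eq_constantCoeff_apply, map_zero]
  by_contra hne
  exact hx (isUnit_of_residueMap hne)

theorem heightIdeal_isInvariant (hF : IsHazewinkel p n F) [F.IsComm] {h : ℕ} (hh : h ≤ n) :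
    IsInvariant p n F (heightIdeal p n h) := by
  refine ⟨fun g σ hg ⟨φ, hφg, hφ⟩ => ?_, fun x hx => ?_⟩
  · have hu1 : IsUnit (PowerSeries.coeff 1 φ) := by
      refine isUnit_of_residueMap ?_
      have h2 : PowerSeries.coeff 1 g = residueMap p n (PowerSeries.coeff 1 φ) := by
        rw [← hφg, PowerSeries.coeff_map]
      exact h2 ▸ hg.2.ne_zero
    induction h with
    | zero =>
      intro x hx
      rw [heightIdeal, if_pos rfl, Ideal.mem_bot] at hx
      rw [hx, map_zero]; exact zero_mem _
    | succ h ih =>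
      intro x hx
      rcases Nat.eq_zero_or_pos h with rfl | h1
      · rw [heightIdeal, if_neg (by omega), show Set.Ico 1 (0 + 1) = ∅ by simp, Set.image_empty,
          insert_empty_eq, Ideal.mem_span_singleton] at hx ⊢
        obtain ⟨y, rfl⟩ := hx
        exact ⟨σ y, by rw [map_mul, map_natCast]⟩
      · have hI := ih (by omega)
        have hmono := heightIdeal_mono (p := p) (n := n) (Nat.le_succ h)
        have hu := action_step hF hφ hu1 h1 (by omega) hI hmono
        rw [mem_succ h1, Submodule.mem_sup] at hx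
        obtain ⟨a, ha, b, hb, rfl⟩ := hx
        rw [Ideal.mem_span_singleton'] at hb
        obtain ⟨c, rfl⟩ := hb
        rw [map_add, map_mul]
        exact Ideal.add_mem _ (hmono (hI a ha)) (Ideal.mul_mem_left _ _ hu)
  · rcases Nat.eq_zero_or_pos h with rfl | h1
    · rw [heightIdeal, if_pos rfl, Ideal.mem_bot] at hx ⊢
      rw [hx, map_zero]
    · suffices heightIdeal p n h ≤ (heightIdeal p n h).comap (coefFrobenius p n) from this hx
      conv_lhs => rw [heightIdeal, if_neg (show h ≠ 0 by omega)]
      rw [Ideal.span_le]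
      rintro y (rfl | ⟨i, ⟨hi1, hi2⟩, rfl⟩)
      · rw [SetLike.mem_coe, Ideal.mem_comap, map_natCast]
        exact p_mem h1
      · rw [SetLike.mem_coe, Ideal.mem_comap]
        have : coefFrobenius p n (u p n i) = u p n i := by
          rw [u, dif_pos ⟨hi1, lt_of_lt_of_le hi2 hh⟩, coefFrobenius, MvPowerSeries.map_X]
        rw [this]
        exact u_mem_of_lt hi1 hi2

end Vale.Agent.P217
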