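import Vale.Agent.P217.Base
import Vale.Agent.P217.LT.CocycleAux.Fibre

/-!
# P217 module B1: the symmetric 2-cocycle lemma for the Honda fibre, over any `k`-algebra
-/

noncomputable section

namespace Vale.Agent.P217

variable {p n : ℕ} [Fact p.Prime]

variable {R : Type} [CommRing R]

/-- First order change of a formal group law under conjugation by `x + ε ψ x`. -/
def coboundary (G : FormalGroup R) (ψ : PowerSeries R) : MvPowerSeries (Fin 2) R :=
  PowerSeries.subst G.toPowerSeries ψ -
    MvPowerSeries.pderiv R 0 G.toPowerSeries *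
      PowerSeries.subst (MvPowerSeries.X 0 : MvPowerSeries (Fin 2) R) ψ -
    MvPowerSeries.pderiv R 1 G.toPowerSeries *
      PowerSeries.subst (MvPowerSeries.X 1 : MvPowerSeries (Fin 2) R) ψ

/-- A normalised symmetric 2-cocycle: the first order deformations of a commutative law. -/
def IsSymmCocycle (G : FormalGroup R) (C : MvPowerSeries (Fin 2) R) : Prop :=
  C.subst ![MvPowerSeries.X 1, MvPowerSeries.X 0] = C ∧
  C.subst ![(MvPowerSeries.X 0 : MvPowerSeries (Fin 2) R), 0] = 0 ∧
  C.subst ![G.toPowerSeries.subst ![(MvPowerSeries.X 0 : MvPowerSeries (Fin 3) R),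
      MvPowerSeries.X 1], MvPowerSeries.X 2] +
    (MvPowerSeries.pderiv R 0 G.toPowerSeries).subst
      ![G.toPowerSeries.subst ![(MvPowerSeries.X 0 : MvPowerSeries (Fin 3) R), MvPowerSeries.X 1],
        MvPowerSeries.X 2] *
      C.subst ![(MvPowerSeries.X 0 : MvPowerSeries (Fin 3) R), MvPowerSeries.X 1] =
  C.subst ![(MvPowerSeries.X 0 : MvPowerSeries (Fin 3) R),
      G.toPowerSeries.subst ![MvPowerSeries.X 1, MvPowerSeries.X 2]] +
    (MvPowerSeries.pderiv R 1 G.toPowerSeries).subst
      ![(MvPowerSeries.X 0 : MvPowerSeries (Fin 3) R),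
        G.toPowerSeries.subst ![MvPowerSeries.X 1, MvPowerSeries.X 2]] *
      C.subst ![(MvPowerSeries.X 1 : MvPowerSeries (Fin 3) R), MvPowerSeries.X 2]

variable {F : FormalGroup (E0 p n)}

section Proofs

open MvPowerSeries Finsupp Finset FG

lemma isComm_map {A B : Type} [CommRing A] [CommRing B] (f : A →+* B) (G : FormalGroup A)
    [G.IsComm] : (G.map f).IsComm := by
  refine ⟨?_⟩
  have h : G.toPowerSeries = G.toPowerSeries.subst ![MvPowerSeries.X 1, MvPowerSeries.X 0] :=
    FormalGroup.IsComm.comm
  have h' := congrArg (MvPowerSeries.map f) h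
  rw [map_two_subst _ _ (constantCoeff_X _) (constantCoeff_X _), map_X, map_X] at h'
  exact h'

variable {S : Type} [CommRing S] (η : Coef p n →+* S)

/-- The invariant differential of the fibre over `S`. -/
def omegaS : PowerSeries S := PowerSeries.map η (omega p n)

/-- The factor turning multiplicative cocycles into additive ones. -/
def weight (F : FormalGroup (E0 p n)) : MvPowerSeries (Fin 2) S :=
  PowerSeries.subst ((specialFibre p n F).map η).toPowerSeries (omegaS η)

lemma constantCoeff_omegaS : PowerSeries.constantCoeff (omegaS (p := p) (n := n) η) = 1 := by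
  rw [omegaS, ← PowerSeries.coeff_zero_eq_constantCoeff_apply, PowerSeries.coeff_map,
    PowerSeries.coeff_zero_eq_constantCoeff_apply, constantCoeff_omega, map_one]

lemma isUnit_omegaS : IsUnit (omegaS (p := p) (n := n) η) :=
  PowerSeries.isUnit_iff_constantCoeff.2 (by rw [constantCoeff_omegaS]; exact isUnit_one)

lemma isUnit_weight : IsUnit (weight η F) := by
  rw [weight, ← PowerSeries.coe_substAlgHom (PowerSeries.HasSubst.of_constantCoeff_zero
    ((specialFibre p n F).map η).zero_constantCoeff)]
  exact (isUnit_omegaS η).map _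

lemma map_classCocycle (i : Fin (n - 1)) :
    MvPowerSeries.map η (classCocycle F i) = weight η F * MvPowerSeries.map η (dF p n F i) := by
  rw [classCocycle, map_mul, PowerSeries.map_subst (PowerSeries.HasSubst.of_constantCoeff_zero
    (specialFibre p n F).zero_constantCoeff)]
  rfl

lemma weight_mul_pderiv (hF : IsHazewinkel p n F) (s : Fin 2) :
    weight η F * MvPowerSeries.pderiv S s ((specialFibre p n F).map η).toPowerSeries =
      PowerSeries.subst (MvPowerSeries.X s : MvPowerSeries (Fin 2) S) (omegaS η) := by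
  classical
  have h := congrArg (MvPowerSeries.map η) (omega_mul_pderiv hF s)
  have hd : MvPowerSeries.map η (MvPowerSeries.pderiv (Coef p n) s
      (specialFibre p n F).toPowerSeries) =
      MvPowerSeries.pderiv S s (MvPowerSeries.map η (specialFibre p n F).toPowerSeries) := by
    ext e
    simp [MvPowerSeries.coeff_pderiv]
  rw [map_mul, PowerSeries.map_subst (PowerSeries.HasSubst.of_constantCoeff_zero
      (specialFibre p n F).zero_constantCoeff),
    PowerSeries.map_subst (PowerSeries.HasSubst.of_constantCoeff_zero (constantCoeff_X s)), map_X,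
    hd] at h
  exact h

lemma weight_mul_coboundary (hF : IsHazewinkel p n F) (ψ : PowerSeries S) :
    weight η F * coboundary ((specialFibre p n F).map η) ψ =
      cobd ((specialFibre p n F).map η) (omegaS η * ψ) := by
  rw [coboundary, cobd, PowerSeries.subst_mul (PowerSeries.HasSubst.of_constantCoeff_zero
      ((specialFibre p n F).map η).zero_constantCoeff),
    PowerSeries.subst_mul (PowerSeries.HasSubst.of_constantCoeff_zero (constantCoeff_X _)),
    PowerSeries.subst_mul (PowerSeries.HasSubst.of_constantCoeff_zero (constantCoeff_X _)),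
    ← weight_mul_pderiv η hF 0, ← weight_mul_pderiv η hF 1, weight]
  ring

lemma sum_Ico_fin {M : Type*} [AddCommMonoid M] (f : ℕ → M) :
    ∑ j ∈ Ico 1 n, f j = ∑ i : Fin (n - 1), f ((i : ℕ) + 1) := by
  rw [Finset.sum_Ico_eq_sum_range, ← Fin.sum_univ_eq_sum_range (fun i => f (1 + i)) (n - 1)]
  exact Finset.sum_congr rfl fun i _ => by rw [add_comm]

/-- The normalised classes, indexed from `1`. -/
def classes (F : FormalGroup (E0 p n)) (j : ℕ) : MvPowerSeries (Fin 2) S :=
  if h : 1 ≤ j ∧ j < n then MvPowerSeries.map η (classCocycle F ⟨j - 1, by omega⟩) else 0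

lemma classes_succ (i : Fin (n - 1)) :
    classes η F ((i : ℕ) + 1) = MvPowerSeries.map η (classCocycle F i) := by
  have := i.isLt
  rw [classes, dif_pos (by omega)]
  rfl

lemma basis_classes {K : Type} [Field K] [CharP K p] (hF : IsHazewinkel p n F) [F.IsComm]
    (hn : 1 ≤ n) (θ : Coef p n →+* K) :
    Basis ((specialFibre p n F).map θ) n (classes θ F) p := by
  obtain ⟨h1, h2⟩ := specialFibre_low hF hn
  have hj : ∀ j, 1 ≤ j → j < n → ∃ i : Fin (n - 1), j = (i : ℕ) + 1 := fun j a b =>
    ⟨⟨j - 1, by omega⟩, by simp only; omega⟩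
  refine ⟨hn, fun e he => ?_, ?_, fun j a b => ?_, fun j a b => ?_, fun j a b => ?_⟩
  · have h := congrArg θ (h1 e he)
    rw [map_zero, ← coeff_map, map_sub, map_add, map_X, map_X] at h
    exact h
  · rw [FormalGroup.map_toPowerSeries, coeff_map]
    exact fun h => h2 (θ.injective (by rw [h, map_zero]))
  all_goals
    obtain ⟨i, rfl⟩ := hj j a b
    rw [classes_succ]
    obtain ⟨c1, c2, c3⟩ := classCocycle_spec hF i
  · exact c1.map θ
  · exact fun e he => by rw [coeff_map, c2 e he, map_zero]
  · rw [coeff_map]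
    exact fun h => c3 (θ.injective (by rw [h, map_zero]))

theorem cocycle_independent_aux (hF : IsHazewinkel p n F) [F.IsComm] (hn : 1 ≤ n)
    (c : Fin (n - 1) → S) (ψ : PowerSeries S) (hψ : ψ.constantCoeff = 0)
    (h : (∑ i, c i • MvPowerSeries.map η (dF p n F i)) +
      coboundary ((specialFibre p n F).map η) ψ = 0) :
    (∀ i, c i = 0) ∧ ψ = 0 := by
  classical
  set G := specialFibre p n F
  set χ := omegaS η * ψ with hχdef
  have h' : (∑ i, c i • MvPowerSeries.map η (classCocycle F i)) + cobd (G.map η) χ = 0 := by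
    rw [hχdef, ← weight_mul_coboundary η hF ψ]
    simp only [map_classCocycle, ← mul_smul_comm]
    rw [← Finset.mul_sum, ← mul_add, h, mul_zero]
  let alg : Algebra (Coef p n) S := η.toAlgebra
  have hid : G.map (RingHom.id (Coef p n)) = G :=
    FormalGroup.ext (MvPowerSeries.ext fun e => by simp)
  have hB : Basis G n (classes (RingHom.id (Coef p n)) F) p := by
    have := basis_classes (K := Coef p n) hF hn (RingHom.id _)
    rwa [hid] at this
  have hlin : ∀ f : Module.Dual (Coef p n) S,
      (∀ i, f (c i) = 0) ∧ ∀ m, f (PowerSeries.coeff m χ) = 0 := by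
    intro f
    have hf : ∀ (x : S) (r : Coef p n), f (x * η r) = f x * r := fun x r => by
      rw [show x * η r = r • x by rw [Algebra.smul_def, mul_comm]; rfl, map_smul, smul_eq_mul,
        mul_comm]
    let χ' : PowerSeries (Coef p n) := PowerSeries.mk fun m => f (PowerSeries.coeff m χ)
    let a : ℕ → Coef p n := fun j => if h : 1 ≤ j ∧ j < n then f (c ⟨j - 1, by omega⟩) else 0
    have ha : ∀ i : Fin (n - 1), a ((i : ℕ) + 1) = f (c i) := fun i => by
      have := i.isLt
      simp only [a]
      rw [dif_pos (by omega)]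
      rfl
    have hχ0 : PowerSeries.constantCoeff χ' = 0 := by
      rw [← PowerSeries.coeff_zero_eq_constantCoeff_apply, PowerSeries.coeff_mk,
        PowerSeries.coeff_zero_eq_constantCoeff_apply, hχdef, map_mul, hψ, mul_zero, map_zero]
    have hzero : (∑ j ∈ Ico 1 n, a j • classes (RingHom.id (Coef p n)) F j) + cobd G χ' = 0 := by
      ext v
      have hv := congrArg (fun x => f (coeff v x)) h'
      simp only [map_add, map_sum, coeff_smul, coeff_map, coeff_cobd, map_zero] at hv
      rw [sum_Ico_fin, map_add, map_sum, coeff_cobd, map_zero]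
      refine Eq.trans ?_ hv
      congr 1
      · refine Finset.sum_congr rfl fun i _ => ?_
        rw [coeff_smul, classes_succ, coeff_map, RingHom.id_apply, ha, hf]
      · refine Finset.sum_congr rfl fun m _ => ?_
        rw [PowerSeries.coeff_mk, show coeff v (cobdPow (G.map η) m) = η (coeff v (cobdPow G m)) by
          simp [cobdPow, ← coeff_map], hf]
    obtain ⟨h1, h2⟩ := eq_zero_of_decomposition hB hχ0 hzero
    refine ⟨fun i => ?_, fun m => ?_⟩
    · rw [← ha]
      exact h1 _ (Finset.mem_Ico.2 (by have := i.isLt; omega))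
    · have := congrArg (PowerSeries.coeff m) h2
      rwa [PowerSeries.coeff_mk, map_zero] at this
  refine ⟨fun i => (Module.forall_dual_apply_eq_zero_iff (Coef p n) _).1 fun f => (hlin f).1 i, ?_⟩
  have hχ : χ = 0 := PowerSeries.ext fun m => by
    rw [map_zero]
    exact (Module.forall_dual_apply_eq_zero_iff (Coef p n) _).1 fun f => (hlin f).2 m
  exact (isUnit_omegaS η).mul_right_eq_zero.1 hχ

/-- The transformed cocycle is additive. -/
lemma isCocycle_weight_mul (hF : IsHazewinkel p n F) [F.IsComm] {C : MvPowerSeries (Fin 2) S}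
    (hC : IsSymmCocycle ((specialFibre p n F).map η) C) :
    IsCocycle ((specialFibre p n F).map η) (weight η F * C) := by
  set G := (specialFibre p n F).map η with hG
  have : G.IsComm := isComm_map η (specialFibre p n F)
  obtain ⟨h1, h2, h3⟩ := hC
  have hX : ∀ {σ : Type} (s : σ), (MvPowerSeries.X s : MvPowerSeries σ S).constantCoeff = 0 :=
    fun s => constantCoeff_X s
  have hh : ∀ {σ : Type} (s : σ), PowerSeries.HasSubst (MvPowerSeries.X s : MvPowerSeries σ S) :=
    fun s => PowerSeries.HasSubst.of_constantCoeff_zero (hX s)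
  have hsub : ∀ {σ : Type} {A B : MvPowerSeries σ S}, A.constantCoeff = 0 → B.constantCoeff = 0 →
      (weight η F * C).subst ![A, B] =
        PowerSeries.subst (G.toPowerSeries.subst ![A, B]) (omegaS η) * C.subst ![A, B] :=
    fun ha hb => by
      rw [MvPowerSeries.subst_mul (hasSubst_two ha hb), weight,
        subst_pseries_subst (hasSubst_two ha hb) G.zero_constantCoeff]
  have hC0 : C.subst ![(MvPowerSeries.X () : MvPowerSeries Unit S), 0] = 0 := by
    have h := congrArg (MvPowerSeries.subst
      ![(MvPowerSeries.X () : MvPowerSeries Unit S), (0 : MvPowerSeries Unit S)]) h2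
    rw [subst_comp_subst_apply (hasSubst_two (hX 0) (map_zero _)) HasSubst.X_zero,
      ← substAlgHom_apply (R := S) HasSubst.X_zero, map_zero] at h
    refine Eq.trans ?_ h
    congr 1
    funext j
    fin_cases j
    · simp [subst_X HasSubst.X_zero]
    · change 0 = MvPowerSeries.subst _ (0 : MvPowerSeries (Fin 2) S)
      rw [← substAlgHom_apply (R := S) HasSubst.X_zero, map_zero]
  refine IsCocycle.of_identities ?_ ?_ ?_
  · rw [hsub (hX 1) (hX 0), h1, ← (inferInstance : G.IsComm).comm]
    rfl
  · rw [hsub (hX ()) (map_zero _), hC0, mul_zero]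
  · rw [hsub (hX 0) (hX 1), hsub (constantCoeff_fin2 G (hX 0) (hX 1)) (hX 2),
      hsub (hX 0) (constantCoeff_fin2 G (hX 1) (hX 2)), hsub (hX 1) (hX 2)]
    have e : ∀ (s : Fin 2) {A B : MvPowerSeries (Fin 3) S}, A.constantCoeff = 0 →
        B.constantCoeff = 0 →
        PowerSeries.subst (G.toPowerSeries.subst ![A, B]) (omegaS η) *
          (MvPowerSeries.pderiv S s G.toPowerSeries).subst ![A, B] =
        PowerSeries.subst (![A, B] s) (omegaS η) := by
      intro s A B ha hb
      have := congrArg (MvPowerSeries.subst ![A, B]) (weight_mul_pderiv η hF s)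
      rw [MvPowerSeries.subst_mul (hasSubst_two ha hb), weight,
        subst_pseries_subst (hasSubst_two ha hb) G.zero_constantCoeff,
        subst_pseries_subst (hasSubst_two ha hb) (hX s), subst_X (hasSubst_two ha hb)] at this
      exact this
    have e1 := e 0 (constantCoeff_fin2 G (hX 0) (hX 1)) (hX 2)
    have e2 := e 1 (hX 0) (constantCoeff_fin2 G (hX 1) (hX 2))
    rw [Matrix.cons_val_zero] at e1
    rw [Matrix.cons_val_one, Matrix.cons_val_fin_one] at e2
    rw [G.assoc' (hh 0) (hh 1) (hh 2)] at e1 ⊢
    rw [← e1, ← e2]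
    linear_combination (PowerSeries.subst (G.toPowerSeries.subst
      ![(MvPowerSeries.X 0 : MvPowerSeries (Fin 3) S),
        G.toPowerSeries.subst ![MvPowerSeries.X 1, MvPowerSeries.X 2]]) (omegaS η)) * h3

theorem cocycle_decomp_aux {K : Type} [Field K] (θ : Coef p n →+* K) (hF : IsHazewinkel p n F)
    [F.IsComm] (hn : 1 ≤ n) {C : MvPowerSeries (Fin 2) K}
    (hC : IsSymmCocycle ((specialFibre p n F).map θ) C) :
    ∃ (c : Fin (n - 1) → K) (ψ : PowerSeries K), ψ.constantCoeff = 0 ∧
      C = (∑ i, c i • MvPowerSeries.map θ (dF p n F i)) +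
        coboundary ((specialFibre p n F).map θ) ψ := by
  have := charP_of_injective_ringHom θ.injective p
  have := isComm_map θ (specialFibre p n F)
  obtain ⟨a, χ, hχ, h⟩ :=
    exists_decomposition (basis_classes hF hn θ) (isCocycle_weight_mul θ hF hC)
  obtain ⟨w, hw⟩ := isUnit_omegaS (p := p) (n := n) θ
  have hψ : omegaS θ * (↑w⁻¹ * χ) = χ := by rw [← hw, Units.mul_inv_cancel_left]
  refine ⟨fun i => a ((i : ℕ) + 1), ↑w⁻¹ * χ, by rw [map_mul, hχ, mul_zero], ?_⟩
  refine (isUnit_weight (F := F) θ).mul_left_cancel ?_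
  rw [h, mul_add, weight_mul_coboundary θ hF, hψ, Finset.mul_sum, sum_Ico_fin]
  congr 1
  exact Finset.sum_congr rfl fun i _ => by rw [classes_succ, map_classCocycle, mul_smul_comm]

end Proofs

theorem cocycle_independent (hF : IsHazewinkel p n F) [F.IsComm] (hn : 1 ≤ n) {S : Type}
    [CommRing S] (η : Coef p n →+* S) (c : Fin (n - 1) → S) (ψ : PowerSeries S)
    (hψ : ψ.constantCoeff = 0)
    (h : (∑ i, c i • MvPowerSeries.map η (dF p n F i)) +
      coboundary ((specialFibre p n F).map η) ψ = 0) :
    (∀ i, c i = 0) ∧ ψ = 0 :=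
  cocycle_independent_aux η hF hn c ψ hψ h

theorem cocycle_decomp (hF : IsHazewinkel p n F) [F.IsComm] (hn : 1 ≤ n) {S : Type} [Field S]
    (η : Coef p n →+* S) {C : MvPowerSeries (Fin 2) S}
    (hC : IsSymmCocycle ((specialFibre p n F).map η) C) :
    ∃ (c : Fin (n - 1) → S) (ψ : PowerSeries S), ψ.constantCoeff = 0 ∧
      C = (∑ i, c i • MvPowerSeries.map η (dF p n F i)) +
        coboundary ((specialFibre p n F).map η) ψ :=
  cocycle_decomp_aux η hF hn hC

end Vale.Agent.P217
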