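import Vale.Agent.P217.FG.Auto
import Vale.Agent.P217.LT.Cocycle
import Vale.Agent.P217.LT.Universal.Chain

/-!
# P217 module B2: universality, the action, rigidity, invariance of the height ideals
-/

noncomputable section

namespace Vale.Agent.P217

open MvPowerSeries IsLocalRing LT

variable {p n : ℕ} [Fact p.Prime] {F : FormalGroup (E0 p n)}

namespace LT

variable {R : Type} [CommRing R]

lemma isHom_comp {A B C' : FormalGroup R} {φ ψ : PowerSeries R} (hφ : IsHom A B φ)
    (hψ : IsHom B C' ψ) : IsHom A C' (PowerSeries.subst φ ψ) := by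
  obtain ⟨h1, h2⟩ := hφ
  obtain ⟨h3, h4⟩ := hψ
  have hs : PowerSeries.HasSubst φ := PowerSeries.HasSubst.of_constantCoeff_zero' h1
  have hc : ∀ {g : MvPowerSeries (Fin 2) R}, g.constantCoeff = 0 →
      (PowerSeries.subst g φ).constantCoeff = 0 := fun hg =>
    PowerSeries.constantCoeff_subst_eq_zero hg φ h1
  have hcomp : ∀ {g : MvPowerSeries (Fin 2) R}, g.constantCoeff = 0 →
      PowerSeries.subst g (PowerSeries.subst φ ψ) = PowerSeries.subst (PowerSeries.subst g φ) ψ :=
    fun {g} hg =>
      PowerSeries.subst_comp_subst_apply hs (PowerSeries.HasSubst.of_constantCoeff_zero hg) ψ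
  refine ⟨PowerSeries.constantCoeff_subst_eq_zero h1 ψ h3, ?_⟩
  have h0 : ∀ i : Fin 2, (MvPowerSeries.X i : MvPowerSeries (Fin 2) R).constantCoeff = 0 := by simp
  have h4' := congrArg (subst (pr φ (MvPowerSeries.X (0 : Fin 2)) (MvPowerSeries.X 1))) h4
  rw [psubst_comp (const_pr h1 (h0 0) (h0 1)) B.zero_constantCoeff,
    subst_two_comp (const_pr h1 (h0 0) (h0 1))
      (PowerSeries.constantCoeff_subst_eq_zero (h0 0) ψ h3)
      (PowerSeries.constantCoeff_subst_eq_zero (h0 1) ψ h3),
    psubst_comp (const_pr h1 (h0 0) (h0 1)) (h0 0), psubst_comp (const_pr h1 (h0 0) (h0 1)) (h0 1),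
    subst_X (hsub (const_pr h1 (h0 0) (h0 1))), subst_X (hsub (const_pr h1 (h0 0) (h0 1)))] at h4'
  rw [hcomp A.zero_constantCoeff, h2, hcomp (h0 0), hcomp (h0 1)]
  exact h4'

/-- The inverse of a series with unit linear term, under composition. -/
lemma exists_inverse {φ : PowerSeries R} (h0 : φ.constantCoeff = 0)
    (h1 : IsUnit (PowerSeries.coeff 1 φ)) :
    ∃ ψ : PowerSeries R, ψ.constantCoeff = 0 ∧ PowerSeries.subst ψ φ = PowerSeries.X ∧
      PowerSeries.subst φ ψ = PowerSeries.X :=
  ⟨φ.substInvOfIsUnit h1, PowerSeries.constantCoeff_substInvOfIsUnit _ _,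
    PowerSeries.subst_substInvOfIsUnit_right _ h0 h1,
    PowerSeries.subst_substInvOfIsUnit_left _ h0 h1⟩

lemma isHom_inverse {A B : FormalGroup R} {φ ψ : PowerSeries R} (hφ : IsHom A B φ)
    (hψ0 : ψ.constantCoeff = 0) (h1 : PowerSeries.subst ψ φ = PowerSeries.X)
    (h2 : PowerSeries.subst φ ψ = PowerSeries.X) : IsHom B A ψ := by
  obtain ⟨hφ0, hφ2⟩ := hφ
  have hs : PowerSeries.HasSubst ψ := PowerSeries.HasSubst.of_constantCoeff_zero' hψ0
  have h0 : ∀ i : Fin 2, (MvPowerSeries.X i : MvPowerSeries (Fin 2) R).constantCoeff = 0 := by simp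
  have hpr := const_pr hψ0 (h0 0) (h0 1)
  have e := congrArg (subst (pr ψ (MvPowerSeries.X (0 : Fin 2)) (MvPowerSeries.X 1))) hφ2
  have hX : ∀ i : Fin 2, PowerSeries.subst (PowerSeries.subst (MvPowerSeries.X i :
      MvPowerSeries (Fin 2) R) ψ) φ = MvPowerSeries.X i := fun i => by
    rw [← PowerSeries.subst_comp_subst_apply hs (PowerSeries.HasSubst.of_constantCoeff_zero (h0 i)),
      h1, PowerSeries.subst_X (PowerSeries.HasSubst.of_constantCoeff_zero (h0 i))]
  rw [psubst_comp hpr A.zero_constantCoeff,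
    subst_two_comp hpr (PowerSeries.constantCoeff_subst_eq_zero (h0 0) φ hφ0)
      (PowerSeries.constantCoeff_subst_eq_zero (h0 1) φ hφ0),
    psubst_comp hpr (h0 0), psubst_comp hpr (h0 1), subst_X (hsub hpr), subst_X (hsub hpr)] at e
  simp only [Matrix.cons_val_zero, Matrix.cons_val_one, hX] at e
  rw [show (![MvPowerSeries.X 0, MvPowerSeries.X 1] : Fin 2 → MvPowerSeries (Fin 2) R) =
    MvPowerSeries.X by funext i; fin_cases i <;> rfl, subst_self, id] at e
  refine ⟨hψ0, ?_⟩
  rw [← e, ← PowerSeries.subst_comp_subst_apply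
    (PowerSeries.HasSubst.of_constantCoeff_zero' hφ0)
    (PowerSeries.HasSubst.of_constantCoeff_zero (constantCoeff_subst_eq_zero (hsub hpr) hpr
      A.zero_constantCoeff)), h2, PowerSeries.subst_X
    (PowerSeries.HasSubst.of_constantCoeff_zero (constantCoeff_subst_eq_zero (hsub hpr) hpr
      A.zero_constantCoeff))]

variable {φ h : PowerSeries R}

/-- The transport of a formal group law along a change of coordinate. -/
lemma exists_transport (A : FormalGroup R) [A.IsComm] (hφ : φ.constantCoeff = 0)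
    (hh : h.constantCoeff = 0) (h1 : PowerSeries.subst h φ = PowerSeries.X)
    (h2 : PowerSeries.subst φ h = PowerSeries.X) :
    ∃ G : FormalGroup R, G.IsComm ∧ IsHom A G φ := by
  let T : ∀ {τ : Type}, MvPowerSeries τ R → MvPowerSeries τ R → MvPowerSeries τ R := fun a b =>
    PowerSeries.subst (subst (pr h a b) A.toPowerSeries) φ
  set P : MvPowerSeries (Fin 2) R := T (MvPowerSeries.X 0) (MvPowerSeries.X 1) with hP
  have hA : ∀ {τ : Type} {a b : MvPowerSeries τ R}, a.constantCoeff = 0 → b.constantCoeff = 0 →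
      (subst (pr h a b) A.toPowerSeries).constantCoeff = 0 := fun ha hb =>
    constantCoeff_subst_eq_zero (hsub (const_pr hh ha hb)) (const_pr hh ha hb) A.zero_constantCoeff
  have hT0 : ∀ {τ : Type} {a b : MvPowerSeries τ R}, a.constantCoeff = 0 → b.constantCoeff = 0 →
      (T a b).constantCoeff = 0 := fun ha hb =>
    PowerSeries.constantCoeff_subst_eq_zero (hA ha hb) φ hφ
  have hX0 : ∀ {m : ℕ} (i : Fin m), (MvPowerSeries.X i : MvPowerSeries (Fin m) R).constantCoeff = 0 :=
    fun i => by simp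
  have hsubP : ∀ {τ : Type} {a b : MvPowerSeries τ R}, a.constantCoeff = 0 →
      b.constantCoeff = 0 → subst ![a, b] P = T a b := by
    intro τ a b ha hb
    have hh0 : ∀ i : Fin 2, (PowerSeries.subst (MvPowerSeries.X i : MvPowerSeries (Fin 2) R) h
        ).constantCoeff = 0 := fun i => PowerSeries.constantCoeff_subst_eq_zero (hX0 i) h hh
    simp only [hP, T]
    rw [psubst_comp (const2 ha hb) (hA (hX0 0) (hX0 1)), pr,
      subst_two_comp (const2 ha hb) (hh0 0) (hh0 1), psubst_comp (const2 ha hb) (hX0 0),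
      psubst_comp (const2 ha hb) (hX0 1), subst_X (hsub (const2 ha hb)),
      subst_X (hsub (const2 ha hb))]
    rfl
  have hT : ∀ {τ : Type} {a b : MvPowerSeries τ R}, a.constantCoeff = 0 → b.constantCoeff = 0 →
      PowerSeries.subst (T a b) h = subst (pr h a b) A.toPowerSeries := fun ha hb => by
    simp only [T]
    rw [← PowerSeries.subst_comp_subst_apply (PowerSeries.HasSubst.of_constantCoeff_zero' hφ)
      (PowerSeries.HasSubst.of_constantCoeff_zero (hA ha hb)), h2,
      PowerSeries.subst_X (PowerSeries.HasSubst.of_constantCoeff_zero (hA ha hb))]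
  have hback : ∀ {τ : Type} {a : MvPowerSeries τ R}, a.constantCoeff = 0 →
      PowerSeries.subst (PowerSeries.subst a h) φ = a := fun ha => by
    rw [← PowerSeries.subst_comp_subst_apply (PowerSeries.HasSubst.of_constantCoeff_zero' hh)
      (PowerSeries.HasSubst.of_constantCoeff_zero ha), h1,
      PowerSeries.subst_X (PowerSeries.HasSubst.of_constantCoeff_zero ha)]
  have hh0 : ∀ {τ : Type} {a : MvPowerSeries τ R}, a.constantCoeff = 0 →
      PowerSeries.HasSubst (PowerSeries.subst a h) := fun ha =>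
    PowerSeries.HasSubst.of_constantCoeff_zero (PowerSeries.constantCoeff_subst_eq_zero ha h hh)
  have hcomm : ∀ {τ : Type} {a b : MvPowerSeries τ R}, a.constantCoeff = 0 →
      b.constantCoeff = 0 → T a b = T b a := fun ha hb => by
    simp only [T, pr]
    rw [A.comm' (hh0 ha) (hh0 hb)]
  have hright : subst ![(MvPowerSeries.X 0 : MvPowerSeries (Fin 2) R), 0] P = MvPowerSeries.X 0 := by
    rw [hsubP (hX0 0) (map_zero _)]
    simp only [T, pr]
    rw [PowerSeries.subst_zero_of_constantCoeff_zero hh, A.add_zero (hh0 (hX0 0)), hback (hX0 0)]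
  have hlin : coeff (Finsupp.single (0 : Fin 2) 1) P = 1 := by
    have e := congrArg (coeff (Finsupp.single (0 : Fin 2) 1)) hright
    rw [coeff_index_single_self_X, coeff_subst (hsub (const2 (hX0 0) (map_zero _))),
      finsum_eq_single _ (Finsupp.single (0 : Fin 2) 1)] at e
    · simpa [Finsupp.prod_single_index, coeff_index_single_self_X] using e
    · intro d hd
      rw [Finsupp.prod_fintype _ _ (fun i => pow_zero _), Fin.prod_univ_two]
      simp only [Matrix.cons_val_zero, Matrix.cons_val_one, smul_eq_mul]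
      by_cases h1' : d 1 = 0
      · rw [h1', pow_zero, mul_one, X_pow_eq, coeff_monomial_ne, mul_zero]
        intro h'
        refine hd (Finsupp.ext fun i => ?_)
        fin_cases i
        · simpa using (DFunLike.congr_fun h' 0).symm
        · simpa using h1'
      · rw [zero_pow h1', mul_zero, map_zero, mul_zero]
  have hswap : subst ![MvPowerSeries.X 1, MvPowerSeries.X 0] P = P := by
    rw [hsubP (hX0 1) (hX0 0), hcomm (hX0 1) (hX0 0)]
  have hlin1 : coeff (Finsupp.single (1 : Fin 2) 1) P = 1 := by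
    have e := congrArg (coeff (Finsupp.single (1 : Fin 2) 1)) hswap
    rw [coeff_subst (hsub (const2 (hX0 1) (hX0 0))),
      finsum_eq_single _ (Finsupp.single (0 : Fin 2) 1)] at e
    · rw [← e, hlin]
      simp [Finsupp.prod_single_index]
    · intro d hd
      rw [Finsupp.prod_fintype _ _ (fun i => pow_zero _), Fin.prod_univ_two]
      simp only [Matrix.cons_val_zero, Matrix.cons_val_one, smul_eq_mul]
      rw [X_pow_eq, X_pow_eq, monomial_mul_monomial, coeff_monomial_ne, mul_zero]
      intro h'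
      refine hd (Finsupp.ext fun i => ?_)
      fin_cases i
      · simpa using (DFunLike.congr_fun h' 1).symm
      · simpa using (DFunLike.congr_fun h' 0).symm
  let G : FormalGroup R :=
    { toPowerSeries := P
      zero_constantCoeff := hT0 (hX0 0) (hX0 1)
      lin_coeff_X := hlin
      lin_coeff_Y := hlin1
      assoc := by
        rw [hsubP (hX0 0) (hX0 1), hsubP (hT0 (hX0 0) (hX0 1)) (hX0 2), hsubP (hX0 1) (hX0 2),
          hsubP (hX0 0) (hT0 (hX0 1) (hX0 2))]
        change PowerSeries.subst _ φ = PowerSeries.subst _ φ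
        congr 1
        rw [pr, pr, hT (hX0 0) (hX0 1), hT (hX0 1) (hX0 2)]
        exact A.assoc' (hh0 (hX0 0)) (hh0 (hX0 1)) (hh0 (hX0 2)) }
  refine ⟨G, ⟨hswap.symm⟩, hφ, ?_⟩
  have hb : ∀ i : Fin 2, PowerSeries.subst (PowerSeries.subst (MvPowerSeries.X i :
      MvPowerSeries (Fin 2) R) φ) h = MvPowerSeries.X i := fun i => by
    rw [← PowerSeries.subst_comp_subst_apply (PowerSeries.HasSubst.of_constantCoeff_zero' hφ)
      (PowerSeries.HasSubst.of_constantCoeff_zero (hX0 i)), h2,
      PowerSeries.subst_X (PowerSeries.HasSubst.of_constantCoeff_zero (hX0 i))]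
  change _ = subst _ P
  rw [hsubP (PowerSeries.constantCoeff_subst_eq_zero (hX0 0) φ hφ)
    (PowerSeries.constantCoeff_subst_eq_zero (hX0 1) φ hφ)]
  simp only [T, pr, hb]
  rw [show (![MvPowerSeries.X 0, MvPowerSeries.X 1] : Fin 2 → MvPowerSeries (Fin 2) R) =
    MvPowerSeries.X by funext i; fin_cases i <;> rfl, subst_self, id]

variable {S : Type} [CommRing S] [IsLocalRing S] [Algebra (W p n) S]
  (hs : Function.Surjective ((residue S).comp (algebraMap (W p n) S)))

include hs in
theorem sol_unique (hF : IsHazewinkel p n F) [F.IsComm] (hn : 1 ≤ n) [IsNoetherianRing S]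
    [IsHausdorff (maximalIdeal S) S] {G : FormalGroup S}
    (hG : G.map (qS hs) = specialFibre p n F) {σ₁ σ₂ : E0 p n →ₐ[W p n] S} {φ₁ φ₂ : PowerSeries S}
    (h₁ : IsHom (F.map σ₁.toRingHom) G φ₁) (h₂ : IsHom (F.map σ₂.toRingHom) G φ₂)
    (e₁ : PowerSeries.map (qS hs) φ₁ = PowerSeries.X)
    (e₂ : PowerSeries.map (qS hs) φ₂ = PowerSeries.X) : σ₂ = σ₁ := by
  refine algHom_ext_X hs fun i => (IsHausdorff.eq_iff_smodEq (I := maximalIdeal S)).2 fun N => ?_
  rw [SModEq.sub_mem, smul_eq_mul, Ideal.mul_top]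
  obtain ⟨M, hM⟩ := close hs hF hn hG N 0
  refine Ideal.pow_le_pow_right (Nat.le_succ N) ((hM σ₁ σ₂ φ₁ φ₂ h₁ h₂ ?_ ?_).1 i)
  · rw [e₁]; exact small_sub_self M _
  · rw [e₂]; exact small_sub_self M _

end LT

theorem isUniversal_of_isHazewinkel (hF : IsHazewinkel p n F) [F.IsComm] (hn : 1 ≤ n) :
    IsUniversal p n F := by
  intro S _ _ _ _ _ hs G hGc hcong
  have := hGc
  have hG : G.map (qS hs) = specialFibre p n F := FormalGroup.ext (by
    ext d
    have h := (mem_maximal_S hs).1 (hcong d)
    rw [map_sub, sub_eq_zero, qS_algebraMap] at h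
    simpa [specialFibre, residueMap_apply] using h)
  have hX : ∀ φ : PowerSeries S, (∀ i, PowerSeries.coeff i φ - PowerSeries.coeff i PowerSeries.X
      ∈ maximalIdeal S) ↔ PowerSeries.map (qS hs) φ = PowerSeries.X := by
    intro φ
    rw [PowerSeries.ext_iff]
    refine forall_congr' fun i => ?_
    rw [mem_maximal_S hs, map_sub, sub_eq_zero, PowerSeries.coeff_map, ← PowerSeries.coeff_map,
      ← PowerSeries.coeff_map, PowerSeries.map_X]
  obtain ⟨σ, φ, h, hq⟩ := exists_sol hs hF hn hG
  refine ⟨σ, ⟨φ, h, (hX φ).2 hq⟩, fun σ' ⟨φ', h', hq'⟩ => ?_⟩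
  exact sol_unique hs hF hn hG h h' hq ((hX φ').1 hq')

namespace LT

lemma residue_surjective :
    Function.Surjective ((residue (E0 p n)).comp (algebraMap (W p n) (E0 p n))) := by
  intro y
  obtain ⟨x, rfl⟩ := IsLocalRing.residue_surjective y
  refine ⟨WittVector.teichmuller p (residueMap p n x), ?_⟩
  rw [RingHom.comp_apply]
  refine Ideal.Quotient.eq.2 ?_
  rw [mem_maximal_iff, map_sub, residueMap_C, sub_eq_zero]
  exact WittVector.teichmuller_coeff_zero p _

lemma qS_self (x : E0 p n) :
    qS (residue_surjective (p := p) (n := n)) x = residueMap p n x :=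
  qS_algHom (residue_surjective (p := p) (n := n)) (AlgHom.id (W p n) (E0 p n)) x

lemma specialFibre_map (σ : E0 p n →ₐ[W p n] E0 p n) :
    (F.map σ.toRingHom).map (residueMap p n) = specialFibre p n F := by
  refine FormalGroup.ext ?_
  ext e
  have h := qS_algHom (residue_surjective (p := p) (n := n)) σ (coeff e F.toPowerSeries)
  rw [qS_self] at h
  simpa [specialFibre] using h

end LT

theorem existsUnique_action (hF : IsHazewinkel p n F) [F.IsComm] (hn : 1 ≤ n) :
    ∀ g, IsAut (specialFibre p n F) g → ∃! σ, IsAction p n F g σ := by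
  intro g hg
  classical
  obtain ⟨⟨hg0, hghom⟩, hg1⟩ := hg
  have hs := residue_surjective (p := p) (n := n)
  have hqS : qS hs = residueMap p n := RingHom.ext qS_self
  choose sec hsec using residueMap_surjective (p := p) (n := n)
  set gl : PowerSeries (E0 p n) :=
    PowerSeries.mk fun i => if i = 0 then 0 else sec (PowerSeries.coeff i g) with hgl
  have hgl0 : gl.constantCoeff = 0 := by simp [gl]
  have hglq : PowerSeries.map (residueMap p n) gl = g := by
    ext i
    rw [PowerSeries.coeff_map, PowerSeries.coeff_mk]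
    split_ifs with hi
    · subst hi; rw [map_zero, PowerSeries.coeff_zero_eq_constantCoeff_apply, hg0]
    · exact hsec _
  have hgl1 : IsUnit (PowerSeries.coeff 1 gl) := by
    refine notMem_maximalIdeal.1 fun hm => hg1.ne_zero ?_
    rw [← hglq, PowerSeries.coeff_map]
    exact mem_maximal_iff.1 hm
  obtain ⟨h, hh0, hr, hl⟩ := exists_inverse hgl0 hgl1
  obtain ⟨G, hGc, hGhom⟩ := exists_transport F hgl0 hh0 hr hl
  have hGq : G.map (residueMap p n) = specialFibre p n F := by
    refine FormalGroup.ext ?_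
    have hX0 : ∀ i : Fin 2, (MvPowerSeries.X i : MvPowerSeries (Fin 2) (E0 p n)).constantCoeff = 0 :=
      by simp
    have hX0' : ∀ i : Fin 2,
        (MvPowerSeries.X i : MvPowerSeries (Fin 2) (Coef p n)).constantCoeff = 0 := by simp
    have e := congrArg (map (residueMap p n)) hGhom.2
    rw [map_psubst _ F.zero_constantCoeff, hglq,
      map_subst_two _ (PowerSeries.constantCoeff_subst_eq_zero (hX0 0) gl hgl0)
        (PowerSeries.constantCoeff_subst_eq_zero (hX0 1) gl hgl0),
      map_psubst _ (hX0 0), map_psubst _ (hX0 1), hglq, map_X, map_X] at e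
    have e' : PowerSeries.subst (specialFibre p n F).toPowerSeries g =
        subst (pr g (MvPowerSeries.X 0) (MvPowerSeries.X 1))
          (G.map (residueMap p n)).toPowerSeries := e
    rw [hghom] at e'
    obtain ⟨k, hk0, hkr, -⟩ := exists_inverse hg0 hg1
    have hkp := const_pr hk0 (hX0' 0) (hX0' 1)
    have hXg : ∀ i : Fin 2, PowerSeries.subst (PowerSeries.subst (MvPowerSeries.X i :
        MvPowerSeries (Fin 2) (Coef p n)) k) g = MvPowerSeries.X i := fun i => by
      rw [← PowerSeries.subst_comp_subst_apply (PowerSeries.HasSubst.of_constantCoeff_zero' hk0)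
        (PowerSeries.HasSubst.of_constantCoeff_zero (hX0' i)), hkr,
        PowerSeries.subst_X (PowerSeries.HasSubst.of_constantCoeff_zero (hX0' i))]
    have e2 := congrArg (subst (pr k (MvPowerSeries.X (0 : Fin 2)) (MvPowerSeries.X 1))) e'
    rw [pr, pr, subst_two_comp hkp (PowerSeries.constantCoeff_subst_eq_zero (hX0' 0) g hg0)
        (PowerSeries.constantCoeff_subst_eq_zero (hX0' 1) g hg0),
      subst_two_comp hkp (PowerSeries.constantCoeff_subst_eq_zero (hX0' 0) g hg0)
        (PowerSeries.constantCoeff_subst_eq_zero (hX0' 1) g hg0),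
      psubst_comp hkp (hX0' 0), psubst_comp hkp (hX0' 1), subst_X (hsub hkp), subst_X (hsub hkp)] at e2
    simp only [Matrix.cons_val_zero, Matrix.cons_val_one, hXg] at e2
    rw [show (![MvPowerSeries.X 0, MvPowerSeries.X 1] : Fin 2 → MvPowerSeries (Fin 2) (Coef p n)) =
      MvPowerSeries.X by funext i; fin_cases i <;> rfl, subst_self, id, id] at e2
    exact e2.symm
  rw [← hqS] at hGq
  obtain ⟨σ, ψ, hψ, hψq⟩ := exists_sol hs hF hn hGq
  have hψ' : IsHom (F.map σ.toRingHom) G ψ := hψ
  have hψ1 : IsUnit (PowerSeries.coeff 1 ψ) := by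
    refine notMem_maximalIdeal.1 fun hm => ?_
    have := (mem_maximal_S hs).1 hm
    rw [← PowerSeries.coeff_map, hψq, PowerSeries.coeff_one_X] at this
    exact one_ne_zero this
  obtain ⟨ψi, hψi0, hψr, hψl⟩ := exists_inverse hψ'.1 hψ1
  have hψiq : PowerSeries.map (residueMap p n) ψi = PowerSeries.X := by
    have e := congrArg (PowerSeries.map (residueMap p n)) hψr
    rw [hqS] at hψq
    rw [PowerSeries.map_X] at e
    have e' := (map_psubst (residueMap p n) hψi0 ψ).symm.trans e
    rw [hψq, PowerSeries.subst_X (PowerSeries.HasSubst.of_constantCoeff_zero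
      ((constantCoeff_map _ _).trans ((congrArg _ hψi0).trans (map_zero _))))] at e'
    exact e'
  refine ⟨σ, ⟨PowerSeries.subst gl ψi, ?_, isHom_comp hGhom (isHom_inverse hψ' hψi0 hψr hψl)⟩,
    fun σ' ⟨φ', hφ'q, hφ'⟩ => ?_⟩
  · refine (map_psubst (residueMap p n) hgl0 ψi).trans ?_
    rw [hψiq]
    exact (PowerSeries.subst_X (PowerSeries.HasSubst.of_constantCoeff_zero
      ((constantCoeff_map _ _).trans ((congrArg _ hgl0).trans (map_zero _))))).trans hglq
  · have hφ'1 : IsUnit (PowerSeries.coeff 1 φ') := by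
      refine notMem_maximalIdeal.1 fun hm => hg1.ne_zero ?_
      rw [← hφ'q, PowerSeries.coeff_map]
      exact mem_maximal_iff.1 hm
    obtain ⟨φi, hφi0, hφr, hφl⟩ := exists_inverse hφ'.1 hφ'1
    refine sol_unique hs hF hn hGq hψ'
      (isHom_comp (isHom_inverse hφ' hφi0 hφr hφl) hGhom) hψq ?_
    rw [hqS]
    refine (map_psubst (residueMap p n) hφi0 gl).trans ?_
    rw [hglq, ← hφ'q]
    exact ((map_psubst (residueMap p n) hφi0 φ').symm.trans
      (congrArg _ hφr)).trans (PowerSeries.map_X _)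

/-- Automorphisms close to the identity act close to the identity. -/
theorem rigidity (hF : IsHazewinkel p n F) [F.IsComm] (hn : 1 ≤ n) (N : ℕ) :
    ∃ M : ℕ, ∀ g σ, IsAut (specialFibre p n F) g →
      PowerSeries.X ^ p ^ M ∣ g - PowerSeries.X → IsAction p n F g σ →
      ∀ x, σ x - x ∈ IsLocalRing.maximalIdeal (E0 p n) ^ N := by
  have hs := residue_surjective (p := p) (n := n)
  have hqS : qS hs = residueMap p n := RingHom.ext qS_self
  have hG : F.map (qS hs) = specialFibre p n F := by rw [hqS]; rfl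
  obtain ⟨M, hM⟩ := close hs hF hn hG N 0
  refine ⟨M, fun g σ hg hdvd hσ x => ?_⟩
  obtain ⟨φ, hφq, hφ⟩ := hσ
  obtain ⟨⟨hg0, -⟩, hg1⟩ := hg
  have hφ1 : IsUnit (PowerSeries.coeff 1 φ) := by
    refine notMem_maximalIdeal.1 fun hm => hg1.ne_zero ?_
    rw [← hφq, PowerSeries.coeff_map]
    exact mem_maximal_iff.1 hm
  obtain ⟨ψ, hψ0, hψr, hψl⟩ := exists_inverse hφ.1 hφ1
  have hgsmall : Small M (g - PowerSeries.X) := by
    obtain ⟨d, hd⟩ := hdvd
    refine small_powerSeries.2 fun i hi => ?_
    have : i < p ^ M := lt_trans hi (Nat.lt_pow_self (Fact.out : p.Prime).one_lt)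
    rw [hd, PowerSeries.coeff_X_pow_mul', if_neg (by omega)]
  set ψq := PowerSeries.map (residueMap p n) ψ with hψqdef
  have e : PowerSeries.subst g ψq = PowerSeries.X := by
    have h := congrArg (PowerSeries.map (residueMap p n)) hψl
    rw [PowerSeries.map_X] at h
    have h' := (map_psubst (residueMap p n) hφ.1 ψ).symm.trans h
    rw [← hψqdef] at h'
    rw [← hφq]
    exact h'
  have hψsmall : Small M (ψq - PowerSeries.X) := by
    have h : Small M (PowerSeries.subst g ψq - PowerSeries.subst PowerSeries.X ψq) :=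
      small_psubst_sub hg0 PowerSeries.constantCoeff_X ψq hgsmall
    rw [e, PowerSeries.X_subst] at h
    have := (small_sub_self M (0 : PowerSeries (Coef p n))).sub h
    simpa using this
  have hid : IsHom (F.map (AlgHom.id (W p n) (E0 p n)).toRingHom) F PowerSeries.X := by
    refine ⟨PowerSeries.constantCoeff_X, ?_⟩
    rw [PowerSeries.subst_X (PowerSeries.HasSubst.of_constantCoeff_zero
        (F.map (AlgHom.id (W p n) (E0 p n)).toRingHom).zero_constantCoeff),
      PowerSeries.subst_X (PowerSeries.HasSubst.of_constantCoeff_zero (by simp)),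
      PowerSeries.subst_X (PowerSeries.HasSubst.of_constantCoeff_zero (by simp)),
      show (![MvPowerSeries.X 0, MvPowerSeries.X 1] : Fin 2 → MvPowerSeries (Fin 2) (E0 p n)) =
        MvPowerSeries.X by funext i; fin_cases i <;> rfl, subst_self, id]
    ext e
    simp
  have h := hM (AlgHom.id (W p n) (E0 p n)) σ PowerSeries.X ψ hid
    (isHom_inverse hφ hψ0 hψr hψl) (by rw [PowerSeries.map_X]; exact small_sub_self M _)
    (by rw [hqS]; exact hψsmall)
  have hX : ∀ i, σ (MvPowerSeries.X i) - MvPowerSeries.X i ∈ maximalIdeal (E0 p n) ^ N :=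
    fun i => Ideal.pow_le_pow_right (Nat.le_succ N) (by simpa using h.1 i)
  rw [← Ideal.Quotient.mk_eq_mk_iff_sub_mem]
  exact RingHom.congr_fun (red_eq hs (J := maximalIdeal (E0 p n) ^ N) le_rfl
    (σ := AlgHom.id (W p n) (E0 p n)) (σ' := σ) hX) x

end Vale.Agent.P217
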